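import Vale.Agent.P246.Dis.H821.Alg
import Vale.Agent.P246.T.CC
import Vale.Agent.P246.T.CL
import Vale.Agent.P246.T.FM
import Vale.Agent.P246.T.CWB
import Vale.Agent.P246.T.PR2
import Vale.Agent.P246.T.RV

/-! # P246, the disproof, block C2: the Euler characteristic of a finite CW complex is a homotopy
invariant -/

namespace Vale.Agent.P246.Dis.H821

open Topology Metric Set Vale.Agent.P246.T

/-- the fundamental chains -/
theorem fund : SpecFund := FM.main PR.main CC.main1 CL.main

/-- the set `B` is built from the empty set by attaching `c n` cells of dimension `n`, for all `n` -/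
inductive BuiltN {X : Type} [TopologicalSpace X] : (ℕ → ℕ) → Set X → Prop
  | base : BuiltN (fun _ => 0) ∅
  | cell {c : ℕ → ℕ} {A B : Set X} (n : ℕ) (Φ : C(Dk n, X)) : BuiltN c A → Attach n A B Φ →
      BuiltN (Function.update c n (c n + 1)) B

/-! ## The singular chains -/

section Model

variable {X : Type} [TopologicalSpace X]

/-- one more cell -/
theorem stepM [T2Space X] {A B : Set X} {n : ℕ} {Φ : C(Dk n, X)} (hA : IsClosed A)
    (h : Attach n A B Φ) {P : ∀ k, Submodule ℤ (Ch k X)}
    (hP : IsFinModel (fun k => Ch k X) (fun k => bd k) (fun k => Con A k) P) :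
    ∃ z : Ch n X, (∀ r : ℤ, r • z ∈ P n → r = 0) ∧
      IsFinModel (fun k => Ch k X) (fun k => bd k) (fun k => Con B k)
        (Function.update P n (P n ⊔ Submodule.span ℤ {z})) := by
  obtain ⟨ζ, hζ⟩ := fund.1 n
  have hAB : A ⊆ B := by rw [h.eq]; exact subset_union_left
  obtain ⟨h1, h2, h3⟩ := CL.main X n Unit B A (fun _ => Φ) ζ hζ (CC.main1 X n A B Φ hA h)
  have hzB : push Φ n ζ ∈ Con B n :=
    push_mem (A := univ) (fun x _ => by rw [h.eq]; exact Or.inr ⟨x, rfl⟩) (PR.Con_univ _)
  have hsum : ∀ m : Unit →₀ ℤ, (m.sum fun _ a => a • push Φ n ζ) = m () • push Φ n ζ := by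
    intro m
    rw [Finsupp.sum_fintype m (fun _ a => a • push Φ n ζ) (fun _ => zero_smul _ _)]
    simp
  have hdrel : ∀ k (x : Ch k X), DRel (fun k => Ch k X) (fun k => bd k) (fun k => Con A k) k x ↔
      RCyc A k x := by
    intro k x
    cases k with
    | zero => exact Iff.rfl
    | succ k => exact Iff.rfl
  have rel2 : ∀ x ∈ Con B n, RCyc A n x → ∃ r : ℤ, ∃ y ∈ Con B (n + 1),
      x - r • push Φ n ζ - bd n y ∈ Con A n := by
    intro x hx hxd
    obtain ⟨m, b, hb, hb'⟩ := h2 x hx hxd
    rw [hsum] at hb'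
    exact ⟨m (), b, hb, hb'⟩
  have rel3 : ∀ r : ℤ, (∃ y ∈ Con B (n + 1), r • push Φ n ζ - bd n y ∈ Con A n) → r = 0 := by
    rintro r ⟨y, hy, hr⟩
    have h4 := h3 (Finsupp.single () r) ⟨y, hy, by rw [hsum]; simpa using hr⟩
    simpa using DFunLike.congr_fun h4 ()
  have hrc : RCyc A n (push Φ n ζ) :=
    PR.rcyc_push (fun x hx => h.bdry x hx) hζ.cyc
  obtain ⟨z', hz1, hz2, -, hz4⟩ := MS.step' (S := fun k => Ch k X) (d := fun k => bd k)
    (fun k x => PR.bd_bd k x) (A := fun k => Con A k) (B := fun k => Con B k)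
    (fun k x hx => PR.bd_mem hx) (fun k x hx => PR.bd_mem hx) (fun k => PR.Con_mono hAB) hP
    hzB ((hdrel n _).2 hrc) (fun k hk x hx hxd => h1 k hk x hx ((hdrel k x).1 hxd))
    (fun x hx hxd => rel2 x hx ((hdrel n x).1 hxd)) rel3
  refine ⟨z', fun r hr => rel3 r ⟨0, Submodule.zero_mem _, ?_⟩, hz4⟩
  rw [map_zero, sub_zero]
  have e : r • push Φ n ζ = r • (push Φ n ζ - z') + r • z' := by rw [smul_sub]; abel
  rw [e]
  exact Submodule.add_mem _ (Submodule.smul_mem _ _ hz1) (hP.le n hr)

theorem finrank_sup {M : Type} [AddCommGroup M] (P : Submodule ℤ M) [Module.Finite ℤ P]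
    [Module.Free ℤ P] (z : M) (h : ∀ r : ℤ, r • z ∈ P → r = 0) :
    Module.finrank ℤ (P ⊔ Submodule.span ℤ {z} : Submodule ℤ M) = Module.finrank ℤ P + 1 := by
  rw [← (MS.supEquiv P z h).finrank_eq, Module.finrank_prod, Module.finrank_self]

/-- the model of a set which is built by attaching cells -/
theorem model [T2Space X] {c : ℕ → ℕ} {B : Set X} (h : BuiltN c B) : IsClosed B ∧
    (∃ N, ∀ n > N, c n = 0) ∧
    ∃ P : ∀ k, Submodule ℤ (Ch k X),
      IsFinModel (fun k => Ch k X) (fun k => bd k) (fun k => Con B k) P ∧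
      ∀ k, Module.finrank ℤ (P k) = c k := by
  induction h with
  | base =>
    refine ⟨isClosed_empty, ⟨0, fun _ _ => rfl⟩, fun _ => ⊥, ?_, fun k => finrank_bot ℤ _⟩
    have e : (fun k => Con (∅ : Set X) k) = fun k => (⊥ : Submodule ℤ (Ch k X)) := by
      funext k
      rw [eq_bot_iff]
      intro x hx
      exact PR.Con_empty hx
    rw [e]
    exact MS.bot
  | cell n Φ _ h ih =>
    obtain ⟨hA, ⟨N, hN⟩, P, hP, hc⟩ := ih
    obtain ⟨z, hz, hP'⟩ := stepM hA h hP
    refine ⟨?_, ⟨max N n, fun k hk => ?_⟩, _, hP', fun k => ?_⟩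
    · rw [h.eq]
      exact hA.union (isCompact_range Φ.continuous).isClosed
    · rw [Function.update_of_ne (by have := le_max_right N n; omega)]
      exact hN k (lt_of_le_of_lt (le_max_left N n) hk)
    · by_cases hk : k = n
      · subst hk
        have h1 := hP.free k
        have h2 := hP.fin k
        rw [Function.update_self, Function.update_self, finrank_sup (P k) z hz, hc]
      · rw [Function.update_of_ne hk, Function.update_of_ne hk, hc]

end Model

/-! ## The Betti numbers are homotopy invariants -/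

section Betti

variable {X Y : Type} [TopologicalSpace X] [TopologicalSpace Y]

/-- the Betti number of a space -/
noncomputable def bt (X : Type) [TopologicalSpace X] (n : ℕ) : ℕ :=
  betti (S := fun k => Ch k X) (fun k => bd k) n

/-- the cycles of a space -/
noncomputable abbrev ZX (X : Type) [TopologicalSpace X] (n : ℕ) : Submodule ℤ (Ch n X) :=
  Zc (S := fun k => Ch k X) (fun k => bd k) n

/-- the boundaries of a space -/
noncomputable abbrev BX (X : Type) [TopologicalSpace X] (n : ℕ) : Submodule ℤ (Ch n X) :=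
  Bc (S := fun k => Ch k X) (fun k => bd k) n

/-- the boundaries, among the cycles -/
noncomputable abbrev BZ (X : Type) [TopologicalSpace X] (n : ℕ) : Submodule ℤ (ZX X n) :=
  (BX X n).comap (ZX X n).subtype

theorem mem_ZX {n : ℕ} {x : Ch n X} : x ∈ ZX X n ↔ Cyc n x := by
  cases n with
  | zero => exact Iff.intro (fun _ => trivial) (fun _ => Submodule.mem_top)
  | succ n => exact LinearMap.mem_ker

/-- push forward of cycles -/
noncomputable def pushZ (f : C(X, Y)) (n : ℕ) : ZX X n →ₗ[ℤ] ZX Y n :=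
  (push f n).restrict fun x hx => by
    rw [mem_ZX] at hx ⊢
    cases n with
    | zero => trivial
    | succ n =>
      change bd n (push f (n + 1) x) = 0
      rw [push_bd, show bd n x = 0 from hx, map_zero]

/-- push forward of homology classes -/
noncomputable def pushH (f : C(X, Y)) (n : ℕ) : (ZX X n ⧸ BZ X n) →ₗ[ℤ] (ZX Y n ⧸ BZ Y n) :=
  Submodule.mapQ _ _ (pushZ f n) (by
    rintro x ⟨y, hy⟩
    exact ⟨push f (n + 1) y, (push_bd f n y).trans (congrArg (push f n) hy)⟩)

theorem pushH_comp {f : C(X, Y)} {g : C(Y, X)} (h : (g.comp f).Homotopic (ContinuousMap.id X))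
    (n : ℕ) (q : ZX X n ⧸ BZ X n) : pushH g n (pushH f n q) = q := by
  obtain ⟨x, rfl⟩ := Submodule.mkQ_surjective _ q
  change Submodule.Quotient.mk _ = Submodule.Quotient.mk _
  rw [Submodule.Quotient.eq]
  obtain ⟨b, hb⟩ := RV.homotopic_cyc h n x.1 (mem_ZX.1 x.2)
  refine ⟨-b, ?_⟩
  change bd n (-b) = push g n (push f n x.1) - x.1
  rw [map_neg, ← hb, push_id, push_comp]
  abel

theorem bt_eq (h : Nonempty (ContinuousMap.HomotopyEquiv X Y)) (n : ℕ) : bt X n = bt Y n := by
  obtain ⟨e⟩ := h
  exact LinearEquiv.finrank_eq (LinearEquiv.ofLinearMap (pushH e.toFun n) (pushH e.invFun n)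
    (LinearMap.ext fun q => pushH_comp e.right_inv n q)
    (LinearMap.ext fun q => pushH_comp e.left_inv n q))

end Betti

/-! ## Euler characteristics -/

section Built

variable {X Y : Type} [TopologicalSpace X] [TopologicalSpace Y]

theorem euler_poincareN [T2Space X] {c : ℕ → ℕ} (h : BuiltN c (univ : Set X)) {N : ℕ}
    (hN : ∀ n ≥ N, c n = 0) :
    ∑ n ∈ Finset.range N, (-1 : ℤ) ^ n * (c n : ℤ) =
      ∑ n ∈ Finset.range (N + 1), (-1 : ℤ) ^ n * (bt X n : ℤ) := by
  obtain ⟨-, -, P, hP, hc⟩ := model h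
  have e : (fun k => Con (univ : Set X) k) = fun k => (⊤ : Submodule ℤ (Ch k X)) := by
    funext k
    exact PR.Con_univ'
  rw [e] at hP
  have hbot : P N = ⊥ := by
    have h1 := hP.free N
    have h2 := hP.fin N
    have h3 := hc N
    rw [hN N le_rfl] at h3
    rw [← Submodule.subsingleton_iff_eq_bot]
    exact Module.finrank_zero_iff.1 h3
  have h4 := euler_poincare (fun k x => PR.bd_bd k x) hP N hbot
  rw [Finset.sum_range_succ, hc N, hN N le_rfl] at h4
  simp only [hc, Nat.cast_zero, mul_zero, add_zero] at h4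
  exact h4

/-- the Euler characteristics of homotopy equivalent spaces, which are built from finitely many
cells, agree -/
theorem eulerN [T2Space X] [T2Space Y] {c c' : ℕ → ℕ} (h : BuiltN c (univ : Set X))
    (h' : BuiltN c' (univ : Set Y)) (e : Nonempty (ContinuousMap.HomotopyEquiv X Y)) {N : ℕ}
    (hN : ∀ n ≥ N, c n = 0) (hN' : ∀ n ≥ N, c' n = 0) :
    ∑ n ∈ Finset.range N, (-1 : ℤ) ^ n * (c n : ℤ) =
      ∑ n ∈ Finset.range N, (-1 : ℤ) ^ n * (c' n : ℤ) := by
  rw [euler_poincareN h hN, euler_poincareN h' hN']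
  simp only [bt_eq e]

/-- a subspace which is built from cells, as a space -/
theorem builtN_sub {c : ℕ → ℕ} {A C : Set X} (h : BuiltN c A) (hAC : A ⊆ C) :
    BuiltN c (Subtype.val ⁻¹' A : Set C) := by
  induction h with
  | base => rw [preimage_empty]; exact BuiltN.base
  | @cell c A B n Φ _ h ih =>
    have hB : ∀ x, Φ x ∈ C := fun x => hAC (by rw [h.eq]; exact Or.inr ⟨x, rfl⟩)
    have hAC' : A ⊆ C := fun x hx => hAC (by rw [h.eq]; exact Or.inl hx)
    refine BuiltN.cell n (⟨fun x => ⟨Φ x, hB x⟩, by fun_prop⟩ : C(Dk n, C)) (ih hAC')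
      ⟨fun x hx => h.bdry x hx, fun x hx => h.int x hx,
        fun x y hx hy hxy => h.inj x y hx hy (congrArg Subtype.val hxy), ?_⟩
    ext y
    rw [h.eq]
    constructor
    · rintro (hy | ⟨x, hx⟩)
      · exact Or.inl hy
      · exact Or.inr ⟨x, Subtype.ext hx⟩
    · rintro (hy | ⟨x, hx⟩)
      · exact Or.inl hy
      · exact Or.inr ⟨x, congrArg Subtype.val hx⟩

/-- the same for subspaces -/
theorem eulerN_sub [T2Space X] [T2Space Y] {c c' : ℕ → ℕ} {A : Set X} {B : Set Y}
    (h : BuiltN c A) (h' : BuiltN c' B) (e : Nonempty (ContinuousMap.HomotopyEquiv A B)) {N : ℕ}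
    (hN : ∀ n ≥ N, c n = 0) (hN' : ∀ n ≥ N, c' n = 0) :
    ∑ n ∈ Finset.range N, (-1 : ℤ) ^ n * (c n : ℤ) =
      ∑ n ∈ Finset.range N, (-1 : ℤ) ^ n * (c' n : ℤ) := by
  have h1 := builtN_sub h subset_rfl
  have h2 := builtN_sub h' subset_rfl
  rw [Subtype.coe_preimage_self] at h1 h2
  exact eulerN h1 h2 e hN hN'

end Built

section CW

variable {X : Type} [TopologicalSpace X] [CWComplex (univ : Set X)]

theorem builtN_fin : ∀ (k : ℕ) (T : Finset (CWB.Cells X)), T.card = k →
    (∀ c ∈ T, ∀ c' : CWB.Cells X, c'.1 < c.1 → c' ∈ T) →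
    BuiltN (fun n => (T.filter fun c => c.1 = n).card) (CWB.U T) := by
  classical
  intro k
  induction k with
  | zero =>
    intro T hT _
    rw [Finset.card_eq_zero] at hT
    subst hT
    have : CWB.U (∅ : Finset (CWB.Cells X)) = ∅ := by simp [CWB.U]
    rw [this]
    exact BuiltN.base
  | succ k ih =>
    intro T hT hdown
    have hne : T.Nonempty := by
      rw [← Finset.card_pos]; omega
    obtain ⟨c, hc, hmax⟩ := Finset.exists_max_image T (fun c => c.1) hne
    have h1 : ∀ c' ∈ T.erase c, ∀ c'' : CWB.Cells X, c''.1 < c'.1 → c'' ∈ T.erase c := by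
      intro c' hc' c'' h
      have h2 := hmax c' (Finset.mem_of_mem_erase hc')
      refine Finset.mem_erase.2 ⟨?_, hdown c' (Finset.mem_of_mem_erase hc') c'' h⟩
      rintro rfl
      omega
    have h2 := ih (T.erase c) (by rw [Finset.card_erase_of_mem hc, hT]; rfl) h1
    have e : (fun n => (T.filter fun c => c.1 = n).card) =
        Function.update (fun n => ((T.erase c).filter fun c => c.1 = n).card) c.1
          (((T.erase c).filter fun c' => c'.1 = c.1).card + 1) := by
      funext n
      by_cases hn : n = c.1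
      · subst hn
        rw [Function.update_self, Finset.filter_erase, Finset.card_erase_add_one]
        exact Finset.mem_filter.2 ⟨hc, rfl⟩
      · rw [Function.update_of_ne hn, Finset.filter_erase, Finset.erase_eq_of_notMem]
        intro h
        exact hn (Finset.mem_filter.1 h).2.symm
    rw [e]
    refine BuiltN.cell c.1 (CWB.chi c) h2 ⟨?_, ?_, ?_, ?_⟩
    · intro x hx
      obtain ⟨c', hc', h'⟩ := CWB.frontier c x hx
      refine mem_iUnion₂.2 ⟨c', Finset.mem_erase.2 ⟨?_, hdown c hc c' hc'⟩, h'⟩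
      rintro rfl
      exact lt_irrefl _ hc'
    · intro x hx hcon
      obtain ⟨c', hc', h'⟩ := mem_iUnion₂.1 hcon
      obtain ⟨c'', h3, h4⟩ := CWB.closed_open c'.1 c' rfl _ h'
      have h5 : c = c'' := CWB.disj (c := c) ⟨x, mem_ball_zero_iff.2 hx, rfl⟩ h3
      have h6 := hmax c' (Finset.mem_of_mem_erase hc')
      rcases h4 with rfl | h4
      · exact (Finset.mem_erase.1 hc').1 h5.symm
      · rw [← h5] at h4
        omega
    · intro x y hx hy hxy
      have h3 := (RelCWComplex.map c.1 c.2).injOn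
        (by rw [RelCWComplex.source_eq]; exact mem_ball_zero_iff.2 hx)
        (by rw [RelCWComplex.source_eq]; exact mem_ball_zero_iff.2 hy) hxy
      exact Subtype.ext h3
    · rw [CWB.range_chi]
      ext y
      simp only [CWB.U, mem_iUnion, mem_union, Finset.mem_erase, exists_prop]
      constructor
      · rintro ⟨c', hc', hy⟩
        by_cases e : c' = c
        · rw [← e]; exact Or.inr hy
        · exact Or.inl ⟨c', ⟨e, hc'⟩, hy⟩
      · rintro (⟨c', hc', hy⟩ | hy)
        · exact ⟨c', hc'.2, hy⟩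
        · exact ⟨c, hc, hy⟩

variable (X) in
/-- a finite CW complex is built from its cells -/
theorem builtN_cw [T2Space X] [CWComplex.Finite (univ : Set X)] :
    BuiltN (fun n => Nat.card (RelCWComplex.cell (univ : Set X) n)) (univ : Set X) := by
  classical
  have hfin : Finite (CWB.Cells X) := RelCWComplex.finite_cells_of_finite
  have : Fintype (CWB.Cells X) := Fintype.ofFinite _
  have h := builtN_fin (X := X) _ Finset.univ rfl fun _ _ _ _ => Finset.mem_univ _
  have e : CWB.U (Finset.univ : Finset (CWB.Cells X)) = univ := by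
    ext y
    obtain ⟨c, hc⟩ := CWB.exists_cell y
    exact ⟨fun _ => trivial, fun _ => mem_iUnion₂.2 ⟨c, Finset.mem_univ _, hc⟩⟩
  have e' : (fun n => ((Finset.univ : Finset (CWB.Cells X)).filter fun c => c.1 = n).card) =
      fun n => Nat.card (RelCWComplex.cell (univ : Set X) n) := by
    funext n
    rw [← Fintype.card_subtype, ← Nat.card_eq_fintype_card]
    exact Nat.card_congr (Equiv.sigmaSubtype n)
  rwa [e, e'] at h

end CW

/-! ## The Euler characteristic -/

section Chi

/-- the Euler characteristic of a finite CW complex -/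
noncomputable def chi (X : Type) [TopologicalSpace X] [CWComplex (univ : Set X)] : ℤ :=
  ∑ᶠ n : ℕ, (-1 : ℤ) ^ n * (Nat.card (RelCWComplex.cell (univ : Set X) n) : ℤ)

theorem chi_eq_sum (X : Type) [TopologicalSpace X] [CWComplex (univ : Set X)] {N : ℕ}
    (hN : ∀ n ≥ N, Nat.card (RelCWComplex.cell (univ : Set X) n) = 0) :
    chi X = ∑ n ∈ Finset.range N,
      (-1 : ℤ) ^ n * (Nat.card (RelCWComplex.cell (univ : Set X) n) : ℤ) := by
  refine finsum_eq_sum_of_support_subset _ fun n hn => ?_
  rw [Finset.coe_range, mem_Iio]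
  by_contra h
  rw [not_lt] at h
  refine hn ?_
  simp only [hN n h, Nat.cast_zero, mul_zero]

/-- **The Euler characteristic is a homotopy invariant.** -/
theorem euler_eq (X Y : Type) [TopologicalSpace X] [T2Space X] [CWComplex (univ : Set X)]
    [CWComplex.Finite (univ : Set X)] [TopologicalSpace Y] [T2Space Y]
    [CWComplex (univ : Set Y)] [CWComplex.Finite (univ : Set Y)]
    (h : Nonempty (ContinuousMap.HomotopyEquiv X Y)) : chi X = chi Y := by
  obtain ⟨-, ⟨N, hN⟩, -⟩ := model (builtN_cw X)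
  obtain ⟨-, ⟨N', hN'⟩, -⟩ := model (builtN_cw Y)
  have h1 : ∀ n ≥ max N N' + 1, Nat.card (RelCWComplex.cell (univ : Set X) n) = 0 :=
    fun n hn => hN n (by omega)
  have h2 : ∀ n ≥ max N N' + 1, Nat.card (RelCWComplex.cell (univ : Set Y) n) = 0 :=
    fun n hn => hN' n (by omega)
  rw [chi_eq_sum X h1, chi_eq_sum Y h2]
  exact eulerN (builtN_cw X) (builtN_cw Y) h h1 h2

/-- the Euler characteristic of a space which is built from finitely many cells, and is a finite
CW complex up to homotopy equivalence -/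
theorem chi_eq_of_built (X Y : Type) [TopologicalSpace X] [T2Space X] {c : ℕ → ℕ}
    (hX : BuiltN c (univ : Set X)) [TopologicalSpace Y] [T2Space Y]
    [CWComplex (univ : Set Y)] [CWComplex.Finite (univ : Set Y)]
    (h : Nonempty (ContinuousMap.HomotopyEquiv X Y)) {N : ℕ} (hc : ∀ n ≥ N, c n = 0) :
    chi Y = ∑ n ∈ Finset.range N, (-1 : ℤ) ^ n * (c n : ℤ) := by
  obtain ⟨-, ⟨N', hN'⟩, -⟩ := model (builtN_cw Y)
  have h1 : ∀ n ≥ max N (N' + 1), c n = 0 := fun n hn => hc n (by omega)
  have h2 : ∀ n ≥ max N (N' + 1), Nat.card (RelCWComplex.cell (univ : Set Y) n) = 0 :=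
    fun n hn => hN' n (by omega)
  rw [chi_eq_sum Y h2, ← eulerN hX (builtN_cw Y) h h1 h2]
  symm
  refine Finset.sum_subset (fun n hn => ?_) fun n _ hn => ?_
  · rw [Finset.mem_range] at hn ⊢
    omega
  · rw [Finset.mem_range, not_lt] at hn
    rw [hc n hn]
    simp

/-- the case of dimension two -/
theorem chi_dim_two (Y : Type) [TopologicalSpace Y] [CWComplex (univ : Set Y)]
    (h : ∀ m > 2, IsEmpty (RelCWComplex.cell (univ : Set Y) m)) :
    chi Y = (Nat.card (RelCWComplex.cell (univ : Set Y) 0) : ℤ) -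
      Nat.card (RelCWComplex.cell (univ : Set Y) 1) +
      Nat.card (RelCWComplex.cell (univ : Set Y) 2) := by
  rw [chi_eq_sum Y (N := 3) (fun n hn => by
    have := h n (by omega)
    exact Nat.card_of_isEmpty)]
  rw [Finset.sum_range_succ, Finset.sum_range_succ, Finset.sum_range_succ, Finset.sum_range_zero]
  ring

end Chi

end Vale.Agent.P246.Dis.H821
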