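import Vale.Agent.P246.T.MS

/-! # P246, the disproof, block C2, part 1: Betti numbers and the Euler characteristic of a
finite model (pure algebra over a commutative domain) -/

namespace Vale.Agent.P246.Dis.H821

open Vale.Agent.P246.T

section

variable {R : Type} [CommRing R] {S : ℕ → Type} [∀ n, AddCommGroup (S n)]
  [∀ n, Module R (S n)] (d : ∀ n, S (n + 1) →ₗ[R] S n)

/-- the cycles -/
def Zc : (n : ℕ) → Submodule R (S n)
  | 0 => ⊤
  | n + 1 => LinearMap.ker (d n)

/-- the boundaries -/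
def Bc (n : ℕ) : Submodule R (S n) := LinearMap.range (d n)

/-- the Betti numbers -/
noncomputable def betti (n : ℕ) : ℕ :=
  Module.finrank R (Zc d n ⧸ (Bc d n).comap (Zc d n).subtype)

theorem mem_Zc (n : ℕ) (x : S n) : x ∈ Zc d n ↔ DCyc S d n x := by
  cases n with
  | zero => exact Iff.intro (fun _ => trivial) (fun _ => Submodule.mem_top)
  | succ n => exact LinearMap.mem_ker

/-- rank-nullity -/
theorem rk [IsDomain R] {M N : Type} [AddCommGroup M] [Module R M] [Module.Finite R M]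
    [AddCommGroup N] [Module R N] (f : M →ₗ[R] N) :
    Module.finrank R (LinearMap.range f) + Module.finrank R (LinearMap.ker f) =
      Module.finrank R M := by
  rw [← (LinearMap.ker f).finrank_quotient_add_finrank, f.quotKerEquivRange.finrank_eq]

variable {d} {P : ∀ n, Submodule R (S n)}

/-- the cycles of the model -/
def ZP (d : ∀ n, S (n + 1) →ₗ[R] S n) (P : ∀ n, Submodule R (S n)) (n : ℕ) :
    Submodule R (P n) := (Zc d n).comap (P n).subtype

/-- the boundaries of the model -/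
def BP (d : ∀ n, S (n + 1) →ₗ[R] S n) (P : ∀ n, Submodule R (S n)) (n : ℕ) :
    Submodule R (P n) := ((P (n + 1)).map (d n)).comap (P n).subtype

/-- the rank of the boundaries -/
noncomputable def rB (d : ∀ n, S (n + 1) →ₗ[R] S n) (P : ∀ n, Submodule R (S n)) (n : ℕ) : ℕ :=
  Module.finrank R (BP d P n)

theorem BP_le_ZP (hd : ∀ n x, d n (d (n + 1) x) = 0) (n : ℕ) : BP d P n ≤ ZP d P n := by
  intro x hx
  obtain ⟨y, -, hy⟩ := hx
  change (x : S n) ∈ Zc d n
  rw [mem_Zc]
  have e : (x : S n) = d n y := hy.symm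
  rw [e]
  exact MS.cyc_d hd n y

variable [IsDomain R] [IsNoetherianRing R]

/-- the rank of the cycles -/
theorem rZ (hd : ∀ n x, d n (d (n + 1) x) = 0) (hP : IsFinModel S d (fun _ => ⊤) P) (n : ℕ) :
    Module.finrank R (ZP d P n) = betti d n + rB d P n := by
  have := hP.fin n
  let f : ZP d P n →ₗ[R] (Zc d n ⧸ (Bc d n).comap (Zc d n).subtype) :=
    ((Bc d n).comap (Zc d n).subtype).mkQ ∘ₗ
      (((P n).subtype ∘ₗ (ZP d P n).subtype).codRestrict (Zc d n) fun x => x.2)
  have hf : Function.Surjective f := by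
    intro q
    obtain ⟨x, rfl⟩ := Submodule.mkQ_surjective _ q
    obtain ⟨y, hy, hyc, z, -, hz⟩ := hP.surj n x.1 Submodule.mem_top ((mem_Zc d n x.1).1 x.2)
    refine ⟨⟨⟨y, hy⟩, (mem_Zc d n y).2 hyc⟩, ?_⟩
    change Submodule.Quotient.mk _ = Submodule.Quotient.mk _
    rw [Submodule.Quotient.eq]
    change y - x.1 ∈ Bc d n
    rw [hz, sub_add_cancel_left]
    exact Submodule.neg_mem _ ⟨z, rfl⟩
  have h1 := rk f
  rw [LinearMap.range_eq_top.2 hf, finrank_top] at h1
  rw [← h1]
  congr 1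
  refine LinearEquiv.finrank_eq ?_
  refine (Submodule.comapSubtypeEquivOfLe (BP_le_ZP hd n)).symm.trans (LinearEquiv.ofEq _ _ ?_) |>.symm
  ext x
  constructor
  · intro hx
    obtain ⟨y, -, hy⟩ := hx
    rw [LinearMap.mem_ker]
    change Submodule.Quotient.mk _ = _
    rw [Submodule.Quotient.mk_eq_zero]
    exact ⟨y, hy⟩
  · intro hx
    rw [LinearMap.mem_ker] at hx
    change Submodule.Quotient.mk _ = _ at hx
    rw [Submodule.Quotient.mk_eq_zero] at hx
    obtain ⟨y, hy⟩ := hx
    obtain ⟨w, hw, e⟩ := hP.inj n x.1.1 x.1.2 ((mem_Zc d n x.1.1).1 x.2)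
      ⟨y, Submodule.mem_top, hy⟩
    exact ⟨w, hw, e⟩

theorem rP_zero (hd : ∀ n x, d n (d (n + 1) x) = 0) (hP : IsFinModel S d (fun _ => ⊤) P) :
    Module.finrank R (P 0) = betti d 0 + rB d P 0 := by
  rw [← rZ hd hP 0]
  have e : ZP d P 0 = ⊤ := eq_top_iff.2 fun _ _ => Submodule.mem_top
  rw [e, finrank_top]

theorem rP_succ (hd : ∀ n x, d n (d (n + 1) x) = 0) (hP : IsFinModel S d (fun _ => ⊤) P)
    (n : ℕ) : Module.finrank R (P (n + 1)) = betti d (n + 1) + rB d P (n + 1) + rB d P n := by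
  rw [← rZ hd hP (n + 1)]
  have := hP.fin (n + 1)
  let f : P (n + 1) →ₗ[R] P n :=
    (d n ∘ₗ (P (n + 1)).subtype).codRestrict (P n) fun x => hP.d_mem n x.1 x.2
  have h1 := rk f
  rw [← h1, add_comm]
  congr 1
  · have e : LinearMap.ker f = ZP d P (n + 1) := by
      ext x
      rw [LinearMap.mem_ker]
      constructor
      · intro h
        exact congrArg Subtype.val h
      · intro h
        exact Subtype.ext h
    rw [e]
  · have e : LinearMap.range f = BP d P n := by
      ext x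
      constructor
      · rintro ⟨y, rfl⟩
        exact ⟨y.1, y.2, rfl⟩
      · rintro ⟨y, hy, e⟩
        exact ⟨⟨y, hy⟩, Subtype.ext e⟩
    rw [e]
    rfl

/-- the partial Euler characteristics -/
theorem euler_partial (hd : ∀ n x, d n (d (n + 1) x) = 0)
    (hP : IsFinModel S d (fun _ => ⊤) P) (N : ℕ) :
    ∑ n ∈ Finset.range (N + 1), (-1 : ℤ) ^ n * (Module.finrank R (P n) : ℤ) =
      ∑ n ∈ Finset.range (N + 1), (-1 : ℤ) ^ n * (betti d n : ℤ) +
        (-1 : ℤ) ^ N * (rB d P N : ℤ) := by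
  induction N with
  | zero => simp [rP_zero hd hP]
  | succ N ih =>
    rw [Finset.sum_range_succ, ih, Finset.sum_range_succ _ (N + 1), rP_succ hd hP N]
    push_cast
    ring

omit [IsNoetherianRing R] in
theorem rB_zero (N : ℕ) (h : P N = ⊥) : rB d P N = 0 := by
  unfold rB
  have e : BP d P N = ⊥ := by
    rw [eq_bot_iff]
    intro x _
    rw [Submodule.mem_bot]
    apply Subtype.ext
    have h1 : (x : S N) ∈ (⊥ : Submodule R (S N)) := h ▸ x.2
    exact h1
  rw [e, finrank_bot]

/-- **Euler–Poincaré**: the alternating sum of the ranks of a finite model depends only on the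
Betti numbers -/
theorem euler_poincare (hd : ∀ n x, d n (d (n + 1) x) = 0)
    (hP : IsFinModel S d (fun _ => ⊤) P) (N : ℕ) (hN : P N = ⊥) :
    ∑ n ∈ Finset.range (N + 1), (-1 : ℤ) ^ n * (Module.finrank R (P n) : ℤ) =
      ∑ n ∈ Finset.range (N + 1), (-1 : ℤ) ^ n * (betti d n : ℤ) := by
  rw [euler_partial hd hP N, rB_zero N hN]
  simp

end

end Vale.Agent.P246.Dis.H821
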