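import Vale.Agent.P246.Dis.H821.Euler
import Vale.Agent.P246.T.CY

/-! # P246, the disproof: the numbers of cells of presentation complexes -/

namespace Vale.Agent.P246.Dis.H821

open Topology Metric Set Vale.Agent.P246.T

/-- `a`, `b`, `c`, `d` cells of the dimensions 0, 1, 2, 3 -/
def cnt (a b c d : ℕ) : ℕ → ℕ
  | 0 => a
  | 1 => b
  | 2 => c
  | 3 => d
  | _ + 4 => 0

theorem cnt_ge {a b c d n : ℕ} (h : n ≥ 4) : cnt a b c d n = 0 := by
  obtain ⟨m, rfl⟩ := Nat.exists_eq_add_of_le' h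
  rfl

theorem update_cnt0 (a b c d : ℕ) :
    Function.update (cnt a b c d) 0 (cnt a b c d 0 + 1) = cnt (a + 1) b c d := by
  funext n
  match n with
  | 0 => rfl
  | 1 => rfl
  | 2 => rfl
  | 3 => rfl
  | _ + 4 => rfl

theorem update_cnt1 (a b c d : ℕ) :
    Function.update (cnt a b c d) 1 (cnt a b c d 1 + 1) = cnt a (b + 1) c d := by
  funext n
  match n with
  | 0 => rfl
  | 1 => rfl
  | 2 => rfl
  | 3 => rfl
  | _ + 4 => rfl

theorem update_cnt2 (a b c d : ℕ) :
    Function.update (cnt a b c d) 2 (cnt a b c d 2 + 1) = cnt a b (c + 1) d := by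
  funext n
  match n with
  | 0 => rfl
  | 1 => rfl
  | 2 => rfl
  | 3 => rfl
  | _ + 4 => rfl

theorem update_cnt3 (a b c d : ℕ) :
    Function.update (cnt a b c d) 3 (cnt a b c d 3 + 1) = cnt a b c (d + 1) := by
  funext n
  match n with
  | 0 => rfl
  | 1 => rfl
  | 2 => rfl
  | 3 => rfl
  | _ + 4 => rfl

theorem cnt_zero : (fun _ => 0 : ℕ → ℕ) = cnt 0 0 0 0 := by
  funext n
  match n with
  | 0 => rfl
  | 1 => rfl
  | 2 => rfl
  | 3 => rfl
  | _ + 4 => rfl

theorem sum_cnt (a b c d : ℕ) :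
    ∑ n ∈ Finset.range 4, (-1 : ℤ) ^ n * (cnt a b c d n : ℤ) = a - b + c - d := by
  rw [Finset.sum_range_succ, Finset.sum_range_succ, Finset.sum_range_succ, Finset.sum_range_succ,
    Finset.sum_range_zero]
  simp only [cnt]
  ring

section

variable {X : Type} [TopologicalSpace X]

theorem cell0 {a b c d : ℕ} {A B : Set X} {Φ : C(Dk 0, X)} (hA : BuiltN (cnt a b c d) A)
    (h : Attach 0 A B Φ) : BuiltN (cnt (a + 1) b c d) B := by
  rw [← update_cnt0]
  exact BuiltN.cell 0 Φ hA h

theorem cell1 {a b c d : ℕ} {A B : Set X} {Φ : C(Dk 1, X)} (hA : BuiltN (cnt a b c d) A)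
    (h : Attach 1 A B Φ) : BuiltN (cnt a (b + 1) c d) B := by
  rw [← update_cnt1]
  exact BuiltN.cell 1 Φ hA h

theorem cell2 {a b c d : ℕ} {A B : Set X} {Φ : C(Dk 2, X)} (hA : BuiltN (cnt a b c d) A)
    (h : Attach 2 A B Φ) : BuiltN (cnt a b (c + 1) d) B := by
  rw [← update_cnt2]
  exact BuiltN.cell 2 Φ hA h

theorem cell3 {a b c d : ℕ} {A B : Set X} {Φ : C(Dk 3, X)} (hA : BuiltN (cnt a b c d) A)
    (h : Attach 3 A B Φ) : BuiltN (cnt a b c (d + 1)) B := by
  rw [← update_cnt3]
  exact BuiltN.cell 3 Φ hA h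

/-- `BuiltN` is preserved by closed embeddings (injective maps suffice) -/
theorem builtN_image {Y : Type} [TopologicalSpace Y] {f : C(X, Y)} (hf : Function.Injective f)
    {c : ℕ → ℕ} {A : Set X} (h : BuiltN c A) : BuiltN c (f '' A) := by
  induction h with
  | base => rw [image_empty]; exact BuiltN.base
  | @cell c A B n Φ _ h ih =>
    refine BuiltN.cell n (f.comp Φ) ih ⟨fun x hx => ⟨_, h.bdry x hx, rfl⟩, ?_, ?_, ?_⟩
    · rintro x hx ⟨y, hy, e⟩
      rw [hf e] at hy
      exact h.int x hx hy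
    · intro x y hx hy e
      exact h.inj x y hx hy (hf e)
    · rw [h.eq, image_union, ContinuousMap.coe_comp, range_comp]

variable {G : Type} [Group G] {Pr : FinPresentation G} {E : Type}
    [TopologicalSpace E] [MulAction G E] [ContinuousConstSMul G E] {p : C(E, X)}

theorem builtN1 (c : PresCx Pr p) (hc : c.Good) :
    ∀ k, k ≤ Pr.gens → BuiltN (cnt 1 k 0 0) (c.Y1 k)
  | 0, _ => by
      rw [CY.Y1_zero]
      exact cell0 (cnt_zero ▸ BuiltN.base) (CY.att0 c)
  | k + 1, h => cell1 (builtN1 c hc k (by omega)) (hc.att1 ⟨k, h⟩)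

theorem builtN2 (c : PresCx Pr p) (hc : c.Good) :
    ∀ k, k ≤ Pr.rels → BuiltN (cnt 1 Pr.gens k 0) (c.Y2 k)
  | 0, _ => by
      rw [CY.Y2_zero]
      exact builtN1 c hc _ le_rfl
  | k + 1, h => cell2 (builtN2 c hc k (by omega)) (hc.att2 ⟨k, h⟩)

/-- the cells of the presentation complex -/
theorem builtN_Y (c : PresCx Pr p) (hc : c.Good) : BuiltN (cnt 1 Pr.gens Pr.rels 0) c.Y :=
  builtN2 c hc _ le_rfl

/-- the cells of the presentation complex with one 3-cell -/
theorem builtN_attach3 (c : PresCx Pr p) (hc : c.Good) {B : Set X} {Φ : C(Dk 3, X)}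
    (h : Attach 3 c.Y B Φ) : BuiltN (cnt 1 Pr.gens Pr.rels 1) B :=
  cell3 (builtN_Y c hc) h

end

/-- the number of cells of a finite 2-complex which is homotopy equivalent to a space with the
given numbers of cells -/
theorem count_of_built {X : Type} [TopologicalSpace X] [T2Space X] {a b c d : ℕ} {B : Set X}
    (hB : BuiltN (cnt a b c d) B) {Z : Type} [TopologicalSpace Z] [T2Space Z]
    [CWComplex (univ : Set Z)] [CWComplex.Finite (univ : Set Z)]
    (hdim : ∀ m > 2, IsEmpty (RelCWComplex.cell (univ : Set Z) m))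
    (e : Nonempty (ContinuousMap.HomotopyEquiv B Z)) :
    (Nat.card (RelCWComplex.cell (univ : Set Z) 0) : ℤ) -
      Nat.card (RelCWComplex.cell (univ : Set Z) 1) +
      Nat.card (RelCWComplex.cell (univ : Set Z) 2) = a - b + c - d := by
  have h1 := builtN_sub hB subset_rfl
  rw [Subtype.coe_preimage_self] at h1
  rw [← chi_dim_two Z hdim, chi_eq_of_built B Z h1 e (N := 4) (fun n hn => cnt_ge hn), sum_cnt]

/-- the final count: the presentation complex with one 3-cell, and a finite 2-complex homotopy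
equivalent to it -/
theorem count_of_attach3 {G : Type} [Group G] {Pr : FinPresentation G} {X E : Type}
    [TopologicalSpace X] [T2Space X] [TopologicalSpace E] [MulAction G E]
    [ContinuousConstSMul G E] {p : C(E, X)} (c : PresCx Pr p) (hc : c.Good) {B : Set X}
    {Φ : C(Dk 3, X)} (h : Attach 3 c.Y B Φ) {Z : Type} [TopologicalSpace Z] [T2Space Z]
    [CWComplex (univ : Set Z)] [CWComplex.Finite (univ : Set Z)]
    (hdim : ∀ m > 2, IsEmpty (RelCWComplex.cell (univ : Set Z) m))
    (e : Nonempty (ContinuousMap.HomotopyEquiv B Z)) :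
    Nat.card (RelCWComplex.cell (univ : Set Z) 0) +
      Nat.card (RelCWComplex.cell (univ : Set Z) 2) + Pr.gens =
      Nat.card (RelCWComplex.cell (univ : Set Z) 1) + Pr.rels := by
  have h1 := count_of_built (builtN_attach3 c hc h) hdim e
  push_cast at h1
  omega

end Vale.Agent.P246.Dis.H821
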